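import Vale.Agent.P192.H479.RL3
import Vale.Agent.P192.H176.RL5

/-!
# P192: the average potential is constant on the pieces of the parameter (helper794)
-/

namespace Vale.Agent.P192.H794

open Vale.Agent.P192.H479 Vale.Agent.P192.RL5

section pg

variable {X V H : Type} [Group H] {act : H →* Equiv.Perm V} {DV : Set V} (F : Reg act DV)

/-- `σ` is the identity over the complement of `DV`, and on every piece it acts on the parameter by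
one element of a finite set, the other coordinates do not depend on the point of the piece. -/
def Pg (σ : Equiv.Perm ((X × V) × ℝ)) : Prop :=
  (∀ x v, v ∉ DV → σ ((x, v), 0) = ((x, v), 0)) ∧
  ∃ r ∈ F.R, ∃ Q : Set H, Q.Finite ∧ ∀ x, ∀ v ∈ DV, ∃ q ∈ Q, ∃ (x' : X) (s : ℝ),
    ∀ v' ∈ DV, r v v' → σ ((x, v'), 0) = ((x', act q v'), s) ∧ act q v' ∈ DV

/-- `σ` commutes with the translations of the last coordinate. -/
def Eqg (σ : Equiv.Perm ((X × V) × ℝ)) : Prop :=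
  ∀ x r, σ (x, r) = ((σ (x, 0)).1, (σ (x, 0)).2 + r)

variable {F} {σ τ : Equiv.Perm ((X × V) × ℝ)}

theorem pg_out (h : Pg F σ) (hσ : Eqg σ) (x : X) {v : V} (hv : v ∉ DV) (r : ℝ) :
    σ ((x, v), r) = ((x, v), r) := by
  rw [hσ, h.1 x v hv, zero_add]

theorem pg_one : Pg F (1 : Equiv.Perm ((X × V) × ℝ)) := by
  refine ⟨fun x y _ => rfl, ?_⟩
  obtain ⟨r, hr⟩ := F.ne
  refine ⟨r, hr, {1}, Set.finite_singleton _, fun x v _ => ⟨1, rfl, x, 0, fun v' hv' _ => ?_⟩⟩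
  rw [map_one]
  exact ⟨rfl, hv'⟩

theorem pg_mul (h : Pg F σ) (hσ : Eqg σ) (h' : Pg F τ) : Pg F (σ * τ) := by
  refine ⟨fun x y hy => ?_, ?_⟩
  · rw [Equiv.Perm.mul_apply, h'.1 x y hy, h.1 x y hy]
  obtain ⟨-, r, hr, Q, hQ, hh⟩ := id h
  obtain ⟨-, r', hr', Q', hQ', hh'⟩ := id h'
  obtain ⟨r₂, hr₂, h₂⟩ := F.pull_finite hr hQ'
  obtain ⟨r₃, hr₃, h₃⟩ := F.inf r' hr' r₂ hr₂
  refine ⟨r₃, hr₃, Set.image2 (fun a b => a * b) Q Q', hQ.image2 _ hQ', fun x v hv => ?_⟩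
  obtain ⟨q', hq', x', s', hx'⟩ := hh' x v hv
  obtain ⟨-, m1⟩ := hx' v hv (F.refl _ hr' v hv)
  obtain ⟨q, hq, x'', s, hx''⟩ := hh x' (act q' v) m1
  refine ⟨q * q', ⟨q, hq, q', hq', rfl⟩, x'', s + s', fun z hz hb => ?_⟩
  obtain ⟨b1, b2⟩ := h₃ v hv z hz hb
  obtain ⟨e2, m2⟩ := hx' z hz b1
  obtain ⟨-, b3⟩ := h₂ q' hq' v hv z hz b2 m1
  obtain ⟨e3, m3⟩ := hx'' (act q' z) m2 b3
  rw [map_mul, Equiv.Perm.mul_apply, Equiv.Perm.mul_apply, e2, hσ, e3]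
  exact ⟨rfl, m3⟩

theorem pg_inv (h : Pg F σ) (hσ : Eqg σ) : Pg F σ⁻¹ := by
  refine ⟨fun x y hy => ?_, ?_⟩
  · rw [Equiv.Perm.inv_eq_iff_eq, h.1 x y hy]
  obtain ⟨-, r, hr, Q, hQ, hh⟩ := id h
  obtain ⟨r₁, hr₁, h₁⟩ := F.pull_finite hr (Q := (fun q => q⁻¹) '' Q) (hQ.image _)
  refine ⟨r₁, hr₁, (fun q => q⁻¹) '' Q, hQ.image _, fun x v hv => ?_⟩
  obtain ⟨⟨⟨x₀, v₀⟩, r₀⟩, hz⟩ := σ.surjective ((x, v), 0)
  have m0 : v₀ ∈ DV := by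
    by_contra hcon
    have h1 := pg_out h hσ x₀ hcon r₀
    rw [hz] at h1
    have h3 : v = v₀ := congrArg (fun z : (X × V) × ℝ => z.1.2) h1
    rw [← h3] at hcon
    exact hcon hv
  obtain ⟨q, hq, x', s, hx'⟩ := hh x₀ v₀ m0
  obtain ⟨e1, -⟩ := hx' v₀ m0 (F.refl r hr v₀ m0)
  have e2 := hσ (x₀, v₀) r₀
  rw [hz, e1] at e2
  have f1 : x = x' := congrArg (fun z : (X × V) × ℝ => z.1.1) e2
  have f2 : v = act q v₀ := congrArg (fun z : (X × V) × ℝ => z.1.2) e2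
  have f3 : (0 : ℝ) = s + r₀ := congrArg (fun z : (X × V) × ℝ => z.2) e2
  have g1 : ∀ z, act q⁻¹ (act q z) = z := fun z => by
    rw [← Equiv.Perm.mul_apply, ← map_mul, inv_mul_cancel, map_one, Equiv.Perm.one_apply]
  have g2 : ∀ z, act q (act q⁻¹ z) = z := fun z => by
    rw [← Equiv.Perm.mul_apply, ← map_mul, mul_inv_cancel, map_one, Equiv.Perm.one_apply]
  have g3 : act q⁻¹ v = v₀ := by rw [f2, g1]
  refine ⟨q⁻¹, ⟨q, hq, rfl⟩, x₀, r₀, fun z hz' hb => ?_⟩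
  obtain ⟨m1, b1⟩ := h₁ q⁻¹ ⟨q, hq, rfl⟩ v hv z hz' hb (by rw [g3]; exact m0)
  rw [g3] at b1
  obtain ⟨e3, -⟩ := hx' (act q⁻¹ z) m1 b1
  refine ⟨?_, m1⟩
  rw [Equiv.Perm.inv_eq_iff_eq, hσ, e3, g2, ← f3, f1]

theorem exists_inf {ι : Type*} (s : Finset ι) (r : ι → V → V → Prop) (hr : ∀ i, r i ∈ F.R) :
    ∃ r' ∈ F.R, ∀ i ∈ s, ∀ x ∈ DV, ∀ y ∈ DV, r' x y → r i x y := by
  classical
  induction s using Finset.induction_on with
  | empty =>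
    obtain ⟨r', hr'⟩ := F.ne
    exact ⟨r', hr', fun i hi => absurd hi (Finset.notMem_empty i)⟩
  | insert a s _ ih =>
    obtain ⟨r₁, h1, h2⟩ := ih
    obtain ⟨r', h5, h6⟩ := F.inf r₁ h1 (r a) (hr a)
    refine ⟨r', h5, fun i hi x hx y hy hxy => ?_⟩
    rcases Finset.mem_insert.1 hi with rfl | hi
    · exact (h6 x hx y hy hxy).2
    · exact h2 i hi x hx y hy (h6 x hx y hy hxy).1

end pg

section main

variable {G V H : Type} [Group G] [Group H] (D : RD G V) {act : H →* Equiv.Perm V} {DV : Set V}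
  (F : Reg act DV) (hgen : Subgroup.closure D.M = ⊤) (Ψ : G →* Equiv.Perm ((D.Pt × V) × ℝ))
  [Fintype Ψ.range] (h1 : ∀ a ∈ D.M, ∀ z, Ψ a z = D.φ1 a z)
  (hΨ : ∀ g x r, Ψ g (x, r) = ((Ψ g (x, 0)).1, (Ψ g (x, 0)).2 + r))
  (hM : ∀ a ∈ D.M, ∃ r ∈ F.R, ∃ Q : Set H, Q.Finite ∧ ∀ k, 0 ≤ k → k < D.ν D.L → ∀ v ∈ DV,
    ∃ q ∈ Q, ∀ v' ∈ DV, r v v' → D.act a k v' = D.act a k v ∧ D.tr a k v' = D.tr a k v ∧
      D.act2 a k v' = act q v' ∧ act q v' ∈ DV)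
  (hD : ∀ a ∈ D.M, ∀ k, 0 ≤ k → k < D.ν D.L → ∀ v, v ∉ DV →
    D.act a k v = k ∧ D.tr a k v = 0 ∧ D.act2 a k v = v)

include hgen h1 hΨ hM hD in
omit [Fintype Ψ.range] in
theorem pg_all (g : G) : Pg F (Ψ g) := by
  refine gen_induct hgen (P := fun g => Pg F (Ψ g)) ?_ ?_ ?_ ?_ g
  · intro a ha
    obtain ⟨r, hr, Q, hQ, h2⟩ := hM a ha
    refine ⟨fun k v hv => ?_, r, hr, Q, hQ, fun k v hv => ?_⟩
    · have e := hD a ha k.1 k.2.1 k.2.2 v hv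
      have f := D.φ0_M ha (k, v)
      rw [h1 a ha]
      refine Prod.ext (Prod.ext (Subtype.ext ?_) ?_) ?_
      · exact f.1.trans e.1
      · exact f.2.trans e.2.2
      · change D.tr a k.1 v + 0 = 0
        rw [e.2.1, add_zero]
    · obtain ⟨q, hq, h3⟩ := h2 k.1 k.2.1 k.2.2 v hv
      have f := D.φ0_M ha (k, v)
      refine ⟨q, hq, (D.φ0 a (k, v)).1, D.tr a k.1 v, fun v' hv' hb => ?_⟩
      obtain ⟨e1, e2, e3, e4⟩ := h3 v' hv' hb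
      have f' := D.φ0_M ha (k, v')
      refine ⟨?_, e4⟩
      rw [h1 a ha]
      refine Prod.ext (Prod.ext (Subtype.ext ?_) ?_) ?_
      · exact f'.1.trans (e1.trans f.1.symm)
      · exact f'.2.trans e3
      · change D.tr a k.1 v' + 0 = D.tr a k.1 v
        rw [e2, add_zero]
  · rw [map_one]
    exact pg_one
  · intro a b ha hb
    rw [map_mul]
    exact pg_mul ha (hΨ a) hb
  · intro a ha
    rw [map_inv]
    exact pg_inv ha (hΨ a)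

include hgen h1 hΨ hM hD in
/-- **The average potential is constant on the pieces of the parameter.** -/
theorem pieg : ∃ r ∈ F.R, ∀ k, 0 ≤ k → k < D.ν D.L → ∀ v ∈ DV, ∀ v' ∈ DV, r v v' →
    D.pos Ψ k v = D.pos Ψ k v' := by
  have hq : ∀ q : Ψ.range, Pg F (q : Equiv.Perm ((D.Pt × V) × ℝ)) := by
    rintro ⟨_, g, rfl⟩
    exact pg_all D F hgen Ψ h1 hΨ hM hD g
  choose r hr Q hQ hh using fun q => (hq q).2
  obtain ⟨r', hr', h'⟩ := exists_inf (F := F) Finset.univ r hr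
  refine ⟨r', hr', fun k hk hkL v hv v' hv' hb => ?_⟩
  have e : ∑ q : Ψ.range, ((q : Equiv.Perm ((D.Pt × V) × ℝ)) ((⟨k, hk, hkL⟩, v), 0)).2 =
      ∑ q : Ψ.range, ((q : Equiv.Perm ((D.Pt × V) × ℝ)) ((⟨k, hk, hkL⟩, v'), 0)).2 := by
    refine Finset.sum_congr rfl fun q _ => ?_
    obtain ⟨_, _, x', s, hs⟩ := hh q ⟨k, hk, hkL⟩ v hv
    rw [(hs v hv (F.refl _ (hr q) v hv)).1,
      (hs v' hv' (h' q (Finset.mem_univ _) v hv v' hv' hb)).1]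
  rw [D.pos_of Ψ ⟨hk, hkL⟩, D.pos_of Ψ ⟨hk, hkL⟩]
  unfold avg
  rw [e]

end main

end Vale.Agent.P192.H794
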