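import Vale.Agent.P192.H479.RL3

/-!
# P192: rectangle exchanges: the average potential is piecewise constant (helper794)
-/

namespace Vale.Agent.P192.H794

open Vale.Agent.P192.H479

section pc

variable {X : Type} (mu : ℝ)

/-- `σ` is the identity over the complement of `[0, mu)`, and over every interval between
breakpoints it translates the second coordinate by an element of `T`, the other coordinates do not
depend on the point of the interval. -/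
def Pc (σ : Equiv.Perm ((X × ℝ) × ℝ)) : Prop :=
  (∀ x y, y ∉ Set.Ico 0 mu → σ ((x, y), 0) = ((x, y), 0)) ∧
  ∃ B T : Set ℝ, B.Finite ∧ T.Finite ∧ ∀ x y, y ∈ Set.Ico 0 mu → ∃ t ∈ T, ∃ (x' : X) (s : ℝ),
    ∀ y' ∈ Set.Ico 0 mu, (∀ b ∈ B, b ≤ y ↔ b ≤ y') → σ ((x, y'), 0) = ((x', y' + t), s)

/-- `σ` commutes with the translations of the last coordinate. -/
def Eqv (σ : Equiv.Perm ((X × ℝ) × ℝ)) : Prop :=
  ∀ x r, σ (x, r) = ((σ (x, 0)).1, (σ (x, 0)).2 + r)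

variable {mu} {σ τ : Equiv.Perm ((X × ℝ) × ℝ)}

theorem pc_out (h : Pc mu σ) (hσ : Eqv σ) (x : X) {y : ℝ} (hy : y ∉ Set.Ico 0 mu) (r : ℝ) :
    σ ((x, y), r) = ((x, y), r) := by
  rw [hσ, h.1 x y hy, zero_add]

theorem pc_mem (h : Pc mu σ) (hσ : Eqv σ) {x x' : X} {y y' r s : ℝ} (hy : y ∈ Set.Ico 0 mu)
    (he : σ ((x, y), r) = ((x', y'), s)) : y' ∈ Set.Ico 0 mu := by
  by_contra hcon
  have h1 := pc_out h hσ x' hcon s
  rw [← he] at h1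
  have h2 := σ.injective h1
  rw [he] at h2
  have h3 : y' = y := congrArg (fun z : (X × ℝ) × ℝ => z.1.2) h2
  rw [h3] at hcon
  exact hcon hy

theorem pc_one : Pc mu (1 : Equiv.Perm ((X × ℝ) × ℝ)) := by
  refine ⟨fun x y _ => rfl, ∅, {0}, Set.finite_empty, Set.finite_singleton _, fun x y _ => ?_⟩
  exact ⟨0, rfl, x, 0, fun y' _ _ => by rw [add_zero]; rfl⟩

theorem pc_mul (h : Pc mu σ) (hσ : Eqv σ) (h' : Pc mu τ) (hτ : Eqv τ) : Pc mu (σ * τ) := by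
  refine ⟨fun x y hy => ?_, ?_⟩
  · rw [Equiv.Perm.mul_apply, h'.1 x y hy, h.1 x y hy]
  obtain ⟨-, B, T, hB, hT, hh⟩ := id h
  obtain ⟨-, B', T', hB', hT', hh'⟩ := id h'
  refine ⟨B' ∪ Set.image2 (fun b t => b - t) B T', Set.image2 (fun t t' => t' + t) T T',
    hB'.union (hB.image2 _ hT'), hT.image2 _ hT', fun x y hy => ?_⟩
  obtain ⟨t', ht', x', s', hx'⟩ := hh' x y hy
  have e1 := hx' y hy fun _ _ => Iff.rfl
  have m1 := pc_mem h' hτ hy e1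
  obtain ⟨t, ht, x'', s, hx''⟩ := hh x' (y + t') m1
  refine ⟨t' + t, ⟨t, ht, t', ht', rfl⟩, x'', s + s', fun z hz hb => ?_⟩
  have e2 := hx' z hz fun b hb' => hb b (Or.inl hb')
  have m2 := pc_mem h' hτ hz e2
  have e3 := hx'' (z + t') m2 fun b hb' => by
    have := hb (b - t') (Or.inr ⟨b, hb', t', ht', rfl⟩)
    rw [← sub_le_iff_le_add, ← sub_le_iff_le_add]
    exact this
  rw [Equiv.Perm.mul_apply, e2, hσ, e3, add_assoc]

theorem pc_inv (h : Pc mu σ) (hσ : Eqv σ) : Pc mu σ⁻¹ := by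
  refine ⟨fun x y hy => ?_, ?_⟩
  · rw [Equiv.Perm.inv_eq_iff_eq, h.1 x y hy]
  obtain ⟨-, B, T, hB, hT, hh⟩ := id h
  refine ⟨Set.image2 (fun b t => b + t) (B ∪ {0, mu}) T, (fun t => -t) '' T,
    (hB.union (Set.toFinite _)).image2 _ hT, hT.image _, fun x y hy => ?_⟩
  obtain ⟨⟨⟨x₀, y₀⟩, r₀⟩, hz⟩ := σ.surjective ((x, y), 0)
  have m0 : y₀ ∈ Set.Ico 0 mu := by
    by_contra hcon
    have h1 := pc_out h hσ x₀ hcon r₀
    rw [hz] at h1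
    have h3 : y = y₀ := congrArg (fun z : (X × ℝ) × ℝ => z.1.2) h1
    rw [← h3] at hcon
    exact hcon hy
  obtain ⟨t, ht, x', s, hx'⟩ := hh x₀ y₀ m0
  have e1 := hx' y₀ m0 fun _ _ => Iff.rfl
  have e2 := hσ (x₀, y₀) r₀
  rw [hz, e1] at e2
  have f1 : x = x' := congrArg (fun z : (X × ℝ) × ℝ => z.1.1) e2
  have f2 : y = y₀ + t := congrArg (fun z : (X × ℝ) × ℝ => z.1.2) e2
  have f3 : (0 : ℝ) = s + r₀ := congrArg (fun z : (X × ℝ) × ℝ => z.2) e2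
  refine ⟨-t, ⟨t, ht, rfl⟩, x₀, r₀, fun z hz' hb => ?_⟩
  have hb' : ∀ b ∈ B ∪ {0, mu}, b ≤ y₀ ↔ b ≤ z - t := fun b hb1 => by
    have := hb (b + t) ⟨b, hb1, t, ht, rfl⟩
    rw [f2] at this
    rw [le_sub_iff_add_le, ← this]
    exact (add_le_add_iff_right t).symm
  have m1 : z - t ∈ Set.Ico 0 mu := by
    refine ⟨(hb' 0 (Or.inr (Or.inl rfl))).1 m0.1, ?_⟩
    by_contra hcon
    exact absurd ((hb' mu (Or.inr (Or.inr rfl))).2 (not_lt.1 hcon)) (not_le.2 m0.2)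
  have e3 := hx' (z - t) m1 fun b hb1 => hb' b (Or.inl hb1)
  rw [Equiv.Perm.inv_eq_iff_eq, hσ, show z + -t = z - t by ring, e3, ← f3, f1,
    show z - t + t = z by ring]

end pc

variable {G : Type} [Group G] (D : RD G ℝ)

/-- the generators act by piecewise translations of the parameter -/
def GenPc (mu : ℝ) : Prop :=
  ∀ a ∈ D.M, ∃ B T : Set ℝ, B.Finite ∧ T.Finite ∧
    (∀ k, 0 ≤ k → k < D.ν D.L → ∀ y ∈ Set.Ico 0 mu, ∀ y' ∈ Set.Ico 0 mu,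
      (∀ b ∈ B, b ≤ y ↔ b ≤ y') → D.act a k y' = D.act a k y ∧ D.tr a k y' = D.tr a k y ∧
        D.act2 a k y' - y' = D.act2 a k y - y ∧ D.act2 a k y - y ∈ T) ∧
    ∀ k, 0 ≤ k → k < D.ν D.L → ∀ y, y ∉ Set.Ico 0 mu →
      D.act a k y = k ∧ D.tr a k y = 0 ∧ D.act2 a k y = y

variable {D} {mu : ℝ}

theorem pc_gen (h : GenPc D mu) {Ψ : G →* Equiv.Perm ((D.Pt × ℝ) × ℝ)}
    (h1 : ∀ a ∈ D.M, ∀ z, Ψ a z = D.φ1 a z) {a : G} (ha : a ∈ D.M) : Pc mu (Ψ a) := by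
  obtain ⟨B, T, hB, hT, h2, h3⟩ := h a ha
  refine ⟨fun k y hy => ?_, B, T, hB, hT, fun k y hy => ?_⟩
  · have e := h3 k.1 k.2.1 k.2.2 y hy
    have f := D.φ0_M ha (k, y)
    rw [h1 a ha]
    refine Prod.ext (Prod.ext (Subtype.ext ?_) ?_) ?_
    · exact f.1.trans e.1
    · exact f.2.trans e.2.2
    · change D.tr a k.1 y + 0 = 0
      rw [e.2.1, add_zero]
  · have f := D.φ0_M ha (k, y)
    refine ⟨D.act2 a k.1 y - y, (h2 k.1 k.2.1 k.2.2 y hy y hy fun _ _ => Iff.rfl).2.2.2,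
      (D.φ0 a (k, y)).1, D.tr a k.1 y, fun y' hy' hb => ?_⟩
    have e := h2 k.1 k.2.1 k.2.2 y hy y' hy' hb
    have f' := D.φ0_M ha (k, y')
    rw [h1 a ha]
    refine Prod.ext (Prod.ext (Subtype.ext ?_) ?_) ?_
    · exact f'.1.trans (e.1.trans f.1.symm)
    · refine f'.2.trans ?_
      change D.act2 a k.1 y' = y' + (D.act2 a k.1 y - y)
      rw [← e.2.2.1]
      ring
    · change D.tr a k.1 y' + 0 = D.tr a k.1 y
      rw [e.2.1, add_zero]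

theorem pc_all (hgen : Subgroup.closure D.M = ⊤) (h : GenPc D mu)
    {Ψ : G →* Equiv.Perm ((D.Pt × ℝ) × ℝ)} (h1 : ∀ a ∈ D.M, ∀ z, Ψ a z = D.φ1 a z)
    (hΨ : ∀ g x r, Ψ g (x, r) = ((Ψ g (x, 0)).1, (Ψ g (x, 0)).2 + r)) (g : G) : Pc mu (Ψ g) := by
  refine gen_induct hgen (P := fun g => Pc mu (Ψ g)) (fun a ha => pc_gen h h1 ha) ?_ ?_ ?_ g
  · rw [map_one]
    exact pc_one
  · intro a b ha hb
    rw [map_mul]
    exact pc_mul ha (hΨ a) hb (hΨ b)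
  · intro a ha
    rw [map_inv]
    exact pc_inv ha (hΨ a)

/-- **The average potential is piecewise constant in the parameter.** -/
theorem pie (hgen : Subgroup.closure D.M = ⊤) (h : GenPc D mu)
    (Ψ : G →* Equiv.Perm ((D.Pt × ℝ) × ℝ)) [Fintype Ψ.range]
    (h1 : ∀ a ∈ D.M, ∀ z, Ψ a z = D.φ1 a z)
    (hΨ : ∀ g x r, Ψ g (x, r) = ((Ψ g (x, 0)).1, (Ψ g (x, 0)).2 + r)) :
    ∃ B3 : Set ℝ, B3.Finite ∧ ∀ k, 0 ≤ k → k < D.ν D.L → ∀ y ∈ Set.Ico 0 mu,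
      ∀ y' ∈ Set.Ico 0 mu, (∀ b ∈ B3, b ≤ y ↔ b ≤ y') → D.pos Ψ k y = D.pos Ψ k y' := by
  classical
  have hq : ∀ q : Ψ.range, Pc mu (q : Equiv.Perm ((D.Pt × ℝ) × ℝ)) := by
    rintro ⟨_, g, rfl⟩
    exact pc_all hgen h h1 hΨ g
  choose B T hB hT hh using fun q => (hq q).2
  refine ⟨⋃ q, B q, Set.finite_iUnion hB, fun k hk hkL y hy y' hy' hb => ?_⟩
  have e : ∑ q : Ψ.range, ((q : Equiv.Perm ((D.Pt × ℝ) × ℝ)) ((⟨k, hk, hkL⟩, y), 0)).2 =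
      ∑ q : Ψ.range, ((q : Equiv.Perm ((D.Pt × ℝ) × ℝ)) ((⟨k, hk, hkL⟩, y'), 0)).2 := by
    refine Finset.sum_congr rfl fun q _ => ?_
    obtain ⟨t, -, x', s, hs⟩ := hh q ⟨k, hk, hkL⟩ y hy
    rw [hs y hy fun _ _ => Iff.rfl, hs y' hy' fun b hb' => hb b (Set.mem_iUnion_of_mem q hb')]
  rw [D.pos_of Ψ ⟨hk, hkL⟩, D.pos_of Ψ ⟨hk, hkL⟩]
  unfold avg
  rw [e]

/-- The average potential vanishes outside of `[0, mu)`. -/
theorem pos_out (hgen : Subgroup.closure D.M = ⊤) (h : GenPc D mu)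
    (Ψ : G →* Equiv.Perm ((D.Pt × ℝ) × ℝ)) [Fintype Ψ.range]
    (h1 : ∀ a ∈ D.M, ∀ z, Ψ a z = D.φ1 a z)
    (hΨ : ∀ g x r, Ψ g (x, r) = ((Ψ g (x, 0)).1, (Ψ g (x, 0)).2 + r)) {k : ℤ} {y : ℝ}
    (hy : y ∉ Set.Ico 0 mu) : D.pos Ψ k y = 0 := by
  by_cases hk : 0 ≤ k ∧ k < D.ν D.L
  · rw [D.pos_of Ψ hk]
    unfold avg
    rw [Finset.sum_eq_zero, zero_div, neg_zero]
    rintro ⟨_, g, rfl⟩ -
    rw [(pc_all hgen h h1 hΨ g).1 ⟨k, hk⟩ y hy]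
  · exact dif_neg hk

end Vale.Agent.P192.H794
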