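import Vale.Agent.P192.H794.F.G7
import Vale.Agent.P192.H823.K.K7
import Vale.Agent.P192.H567.StmtDefs

/-!
# P192: piecewise isometries of the line and of the plane over ordered fields, uniform form

Draft of the hand-in `RectangleExchanges`, uniform version.
-/

namespace Vale.Agent.P192.H794.RE2

open Vale.Agent.P192.H567 Vale.Agent.P192.H479

/-- **Piecewise isometries, uniform form.** `TwoCol L` says that `L` has asymptotic dimension at
most one, in the form of two-colourings, `CellK B x x'` that `x` and `x'` have the same position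
relative to the points of `B`, `pre n ξ` is the list of the first `n` letters of `ξ`, `rep p n ξ` is
`ξ` with its first `n` letters replaced by `p`, `Aper ξ` says that `ξ` is not eventually
periodic. -/
theorem result :
    -- (1) free action, counters, line
    (∀ (G : Type) [Group G] [Group.IsFinitelyPresented G], (∀ x : G, IsOfFinOrder x) →
      ∀ S : Set G, Subgroup.closure S = ⊤ →
      ∀ (L : Type) [Group L], TwoCol L →
      ∀ (k m : ℕ) (K : Set (L × (Fin k → ℤ))), K.Finite →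
      ∃ N : Subgroup G, N.Normal ∧ N.FiniteIndex ∧
        ∀ (𝕜 : Type) [Field 𝕜] [LinearOrder 𝕜] [IsStrictOrderedRing 𝕜]
          (U : Type) [MulAction L U], (∀ (l : L) (u : U), l • u = u → l = 1) →
        ∀ (W : Fin k → Type) (T : ∀ i, Equiv.Perm (W i))
          (ρ : G →* Equiv.Perm (U × (∀ i, W i) × 𝕜)),
        (∀ s ∈ S, ∃ (c : ∀ i, W i → Fin m) (B R : Finset 𝕜), B.card ≤ m ∧ R.card ≤ m ∧
          ∀ (u : U) (w : ∀ i, W i) (x : 𝕜), ∃ q ∈ K, ∃ t ∈ R, ∃ e : 𝕜, |e| = 1 ∧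
            ∀ w' : ∀ i, W i, (∀ i, c i (w i) = c i (w' i)) → ∀ x' : 𝕜, CellK B x x' →
              ρ s (u, w', x') = (q.1 • u, fun i => (T i ^ q.2 i) (w' i), e * x' + t)) →
        ∀ g ∈ N, ρ g = 1) ∧
    -- (2) plane, counters
    (∀ (G : Type) [Group G] [Group.IsFinitelyPresented G], (∀ x : G, IsOfFinOrder x) →
      ∀ S : Set G, Subgroup.closure S = ⊤ →
      ∀ (k m : ℕ) (K : Set (Fin k → ℤ)), K.Finite →
      ∃ N : Subgroup G, N.Normal ∧ N.FiniteIndex ∧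
        ∀ (𝕜 : Type) [Field 𝕜] [LinearOrder 𝕜] [IsStrictOrderedRing 𝕜]
          (W : Fin k → Type) (T : ∀ i, Equiv.Perm (W i))
          (ρ : G →* Equiv.Perm (𝕜 × (∀ i, W i) × 𝕜)),
        (∀ s ∈ S, ∃ (c : ∀ i, W i → Fin m) (B R : Finset 𝕜), B.card ≤ m ∧ R.card ≤ m ∧
          ∀ (x : 𝕜) (w : ∀ i, W i) (y : 𝕜), ∃ z ∈ K, ∃ r ∈ R, ∃ t ∈ R, ∃ e d : 𝕜,
            |e| = 1 ∧ |d| = 1 ∧
            ((∀ x', CellK B x x' → ∀ w' : ∀ i, W i, (∀ i, c i (w i) = c i (w' i)) →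
                ∀ y', CellK B y y' →
              ρ s (x', w', y') = (e * x' + r, fun i => (T i ^ z i) (w' i), d * y' + t)) ∨
            (∀ x', CellK B x x' → ∀ w' : ∀ i, W i, (∀ i, c i (w i) = c i (w' i)) →
                ∀ y', CellK B y y' →
              ρ s (x', w', y') = (e * y' + r, fun i => (T i ^ z i) (w' i), d * x' + t)))) →
        ∀ g ∈ N, ρ g = 1) ∧
    -- (3) infinite words, counters, line
    (∀ (G : Type) [Group G] [Group.IsFinitelyPresented G], (∀ x : G, IsOfFinOrder x) →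
      ∀ S : Set G, Subgroup.closure S = ⊤ →
      ∀ (X : Type) [Finite X] (k m : ℕ) (K : Set (Fin k → ℤ)), K.Finite →
      ∃ N : Subgroup G, N.Normal ∧ N.FiniteIndex ∧
        ∀ (𝕜 : Type) [Field 𝕜] [LinearOrder 𝕜] [IsStrictOrderedRing 𝕜] (Ω : Set (ℕ → X)),
          (∀ ξ ∈ Ω, ∀ n, ∃ ξ' ∈ Ω, Aper ξ' ∧ ∀ i < n, ξ' i = ξ i) →
        ∀ (W : Fin k → Type) (T : ∀ i, Equiv.Perm (W i))
          (ρ : G →* Equiv.Perm (Ω × (∀ i, W i) × 𝕜)),
        (∀ s ∈ S, ∃ (c : ∀ i, W i → Fin m) (B R : Finset 𝕜), B.card ≤ m ∧ R.card ≤ m ∧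
          ∀ z : Ω × (∀ i, W i) × 𝕜, ∃ p : List X, p.length ≤ m ∧ ∃ q ∈ K, ∃ t ∈ R,
            ∃ e : 𝕜, |e| = 1 ∧ ∀ z' : Ω × (∀ i, W i) × 𝕜, pre m z.1.1 = pre m z'.1.1 →
              (∀ i, c i (z.2.1 i) = c i (z'.2.1 i)) → CellK B z.2.2 z'.2.2 →
                ((ρ s z').1 : ℕ → X) = rep p m z'.1 ∧
                  (ρ s z').2 = (fun i => (T i ^ q i) (z'.2.1 i), e * z'.2.2 + t)) →
        ∀ g ∈ N, ρ g = 1) := by
  refine ⟨?_, ?_, ?_⟩
  · intro G _ _ hG S hS L _ hL k m K hK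
    exact Vale.Agent.P192.H794.F.unif_line G hG S hS L hL k m K hK
  · intro G _ _ hG S hS k m K hK
    obtain ⟨N, h1, h2, h3⟩ := Vale.Agent.P192.H823.K.unif_iso_two G hG S hS k m K hK
    refine ⟨N, h1, h2, ?_⟩
    intro 𝕜 _ _ _ W T ρ hρ g hg
    exact h3 { 𝕜 := 𝕜, W := W, T := T, ρ := ρ, pw := hρ } g hg
  · intro G _ _ hG S hS X _ k m K hK
    exact Vale.Agent.P192.H794.F.unif_words G hG S hS X k m K hK

end Vale.Agent.P192.H794.RE2
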